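import Mathlib.Analysis.Normed.Module.Basic
import Mathlib.Analysis.Seminorm
import Mathlib.Order.Filter.Ultrafilter.Basic
import Mathlib.Topology.Instances.Real.Lemmas
import Mathlib.Analysis.Normed.Operator.LinearIsometry
import Mathlib.Tactic

/-!
P084 (helper406): ultraproducts of real normed spaces.
-/

open Filter Topology

namespace Vale.Agent.P084.H406

section Ultra

variable {ι : Type*} (U : Ultrafilter ι) (E : ι → Type*) [∀ n, NormedAddCommGroup (E n)]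
  [∀ n, NormedSpace ℝ (E n)]

/-- bounded families -/
def bdd : Submodule ℝ (∀ n, E n) where
  carrier := {x | ∃ C, ∀ n, ‖x n‖ ≤ C}
  add_mem' := by
    rintro x y ⟨C, hC⟩ ⟨D, hD⟩
    exact ⟨C + D, fun n => (norm_add_le _ _).trans (add_le_add (hC n) (hD n))⟩
  zero_mem' := ⟨0, fun n => by simp⟩
  smul_mem' := by
    rintro a x ⟨C, hC⟩
    refine ⟨‖a‖ * C, fun n => ?_⟩
    rw [Pi.smul_apply, norm_smul]
    exact mul_le_mul_of_nonneg_left (hC n) (norm_nonneg a)

/-- bounded families, with the seminorm of the ultrafilter -/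
def BSeq (_U : Ultrafilter ι) (E : ι → Type*) [∀ n, NormedAddCommGroup (E n)]
    [∀ n, NormedSpace ℝ (E n)] : Type _ := bdd E

instance : AddCommGroup (BSeq U E) := inferInstanceAs (AddCommGroup (bdd E))

instance : Module ℝ (BSeq U E) := inferInstanceAs (Module ℝ (bdd E))

variable {U E}

theorem exists_lim {g : ι → ℝ} (h : ∃ C, ∀ n, |g n| ≤ C) :
    ∃ x, Tendsto g (U : Filter ι) (𝓝 x) := by
  obtain ⟨C, hC⟩ := h
  have h1 : (U.map g : Filter ℝ) ≤ 𝓟 (Set.Icc (-C) C) := by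
    rw [le_principal_iff]
    change Set.Icc (-C) C ∈ Filter.map g U
    rw [Filter.mem_map]
    exact Filter.univ_mem' fun n => abs_le.mp (hC n)
  obtain ⟨x, _, hx⟩ := (isCompact_Icc (a := -C) (b := C)).ultrafilter_le_nhds (U.map g) h1
  exact ⟨x, hx⟩

theorem lim_norm (x : BSeq U E) :
    Tendsto (fun n => ‖x.1 n‖) (U : Filter ι) (𝓝 (limUnder (U : Filter ι) fun n => ‖x.1 n‖)) := by
  obtain ⟨C, hC⟩ := x.2
  exact tendsto_nhds_limUnder (exists_lim ⟨C, fun n => by rw [abs_norm]; exact hC n⟩)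

variable (U E) in
/-- the seminorm `lim_U ‖x n‖` -/
noncomputable def sem : Seminorm ℝ (BSeq U E) :=
  Seminorm.of (fun x => limUnder (U : Filter ι) fun n => ‖x.1 n‖)
    (fun x y => le_of_tendsto_of_tendsto (lim_norm (x + y)) ((lim_norm x).add (lim_norm y))
      (Eventually.of_forall fun n => norm_add_le (x.1 n) (y.1 n)))
    (fun a x => tendsto_nhds_unique (lim_norm (a • x)) (by
      refine ((lim_norm x).const_mul ‖a‖).congr fun n => ?_
      exact (norm_smul a (x.1 n)).symm))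

noncomputable instance : SeminormedAddCommGroup (BSeq U E) :=
  (sem U E).toAddGroupSeminorm.toSeminormedAddCommGroup

theorem tendsto_norm_bseq (x : BSeq U E) :
    Tendsto (fun n => ‖x.1 n‖) (U : Filter ι) (𝓝 ‖x‖) := lim_norm x

noncomputable instance : NormedSpace ℝ (BSeq U E) where
  norm_smul_le a x := by
    have h : ‖a • x‖ = ‖a‖ * ‖x‖ := map_smul_eq_mul (sem U E) a x
    exact h.le

variable (U E) in
/-- the ultraproduct -/
abbrev UP : Type _ := SeparationQuotient (BSeq U E)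

variable (U) in
/-- a bounded family -/
def bs (x : ∀ n, E n) (h : ∃ C, ∀ n, ‖x n‖ ≤ C) : BSeq U E := (⟨x, h⟩ : bdd E)

variable (U) in
/-- class of a bounded family -/
noncomputable def up (x : ∀ n, E n) (h : ∃ C, ∀ n, ‖x n‖ ≤ C) : UP U E :=
  SeparationQuotient.mk (bs U x h)

theorem tendsto_norm_up (x : ∀ n, E n) (h : ∃ C, ∀ n, ‖x n‖ ≤ C) :
    Tendsto (fun n => ‖x n‖) (U : Filter ι) (𝓝 ‖up U x h‖) := by
  rw [up, SeparationQuotient.norm_mk]
  exact tendsto_norm_bseq (bs U x h)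

theorem exists_up (u : UP U E) : ∃ (x : ∀ n, E n) (h : ∃ C, ∀ n, ‖x n‖ ≤ C), up U x h = u := by
  obtain ⟨y, rfl⟩ := SeparationQuotient.surjective_mk u
  exact ⟨y.1, y.2, rfl⟩

omit [∀ n, NormedSpace ℝ (E n)] in
theorem bdd_sub {x y : ∀ n, E n} (hx : ∃ C, ∀ n, ‖x n‖ ≤ C) (hy : ∃ C, ∀ n, ‖y n‖ ≤ C) :
    ∃ C, ∀ n, ‖x n - y n‖ ≤ C := by
  obtain ⟨C, hC⟩ := hx
  obtain ⟨D, hD⟩ := hy
  exact ⟨C + D, fun n => (norm_sub_le _ _).trans (add_le_add (hC n) (hD n))⟩

theorem up_sub {x y : ∀ n, E n} (hx : ∃ C, ∀ n, ‖x n‖ ≤ C) (hy : ∃ C, ∀ n, ‖y n‖ ≤ C) :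
    up U x hx - up U y hy = up U (fun n => x n - y n) (bdd_sub hx hy) := rfl

theorem tendsto_dist_up {x y : ∀ n, E n} (hx : ∃ C, ∀ n, ‖x n‖ ≤ C)
    (hy : ∃ C, ∀ n, ‖y n‖ ≤ C) :
    Tendsto (fun n => dist (x n) (y n)) (U : Filter ι) (𝓝 (dist (up U x hx) (up U y hy))) := by
  simp only [dist_eq_norm]
  rw [up_sub]
  exact tendsto_norm_up _ _

theorem up_eq_of_tendsto {x y : ∀ n, E n} (hx : ∃ C, ∀ n, ‖x n‖ ≤ C)
    (hy : ∃ C, ∀ n, ‖y n‖ ≤ C) (h : Tendsto (fun n => dist (x n) (y n)) (U : Filter ι) (𝓝 0)) :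
    up U x hx = up U y hy :=
  dist_eq_zero.mp (tendsto_nhds_unique (tendsto_dist_up hx hy) h)

theorem bdd_sum {m : ℕ} {a : ι → Fin m → ℝ} {x : ∀ n, Fin m → E n} (ha : ∀ n i, |a n i| ≤ 1)
    (hx : ∀ n i, ‖x n i‖ ≤ 1) : ∃ C, ∀ n, ‖∑ i, a n i • x n i‖ ≤ C := by
  refine ⟨m, fun n => (norm_sum_le _ _).trans ?_⟩
  calc ∑ i, ‖a n i • x n i‖ ≤ ∑ _i : Fin m, (1 : ℝ) := by
        refine Finset.sum_le_sum fun i _ => ?_
        rw [norm_smul, Real.norm_eq_abs]
        exact mul_le_one₀ (ha n i) (norm_nonneg _) (hx n i)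
    _ = m := by simp

/-- sums with convergent coefficients -/
theorem up_sum {m : ℕ} {a : ι → Fin m → ℝ} {b : Fin m → ℝ} {x : ∀ n, Fin m → E n}
    (ha : ∀ n i, |a n i| ≤ 1) (hx : ∀ n i, ‖x n i‖ ≤ 1)
    (hab : ∀ i, Tendsto (fun n => a n i) (U : Filter ι) (𝓝 (b i))) :
    up U (fun n => ∑ i, a n i • x n i) (bdd_sum ha hx) =
      ∑ i, b i • up U (fun n => x n i) ⟨1, fun n => hx n i⟩ := by
  have hb : ∀ i, |b i| ≤ 1 := fun i =>
    le_of_tendsto ((hab i).abs) (Eventually.of_forall fun n => ha n i)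
  have h1 : ∑ i, b i • up U (fun n => x n i) ⟨1, fun n => hx n i⟩ =
      up U (fun n => ∑ i, b i • x n i) (bdd_sum (fun _ i => hb i) hx) := by
    have h2 : ∀ s : Finset (Fin m), ∃ h, ∑ i ∈ s, b i • up U (fun n => x n i)
        ⟨1, fun n => hx n i⟩ = up U (fun n => ∑ i ∈ s, b i • x n i) h := by
      intro s
      induction s using Finset.induction_on with
      | empty => exact ⟨⟨0, fun n => by simp⟩, rfl⟩
      | insert i s hi ih =>
        obtain ⟨h, ih⟩ := ih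
        have hin : ∀ n, ∑ i ∈ insert i s, b i • x n i = b i • x n i + ∑ i ∈ s, b i • x n i :=
          fun n => Finset.sum_insert hi
        rw [Finset.sum_insert hi, ih]
        simp only [hin]
        obtain ⟨C, hC⟩ := h
        refine ⟨⟨1 + C, fun n => (norm_add_le _ _).trans (add_le_add ?_ (hC n))⟩, rfl⟩
        rw [norm_smul, Real.norm_eq_abs]
        exact mul_le_one₀ (hb i) (norm_nonneg _) (hx n i)
    exact (h2 Finset.univ).2
  rw [h1]
  apply up_eq_of_tendsto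
  have h3 : Tendsto (fun n => ∑ i, |a n i - b i|) (U : Filter ι) (𝓝 0) := by
    have : (0 : ℝ) = ∑ i : Fin m, |b i - b i| := by simp
    rw [this]
    exact tendsto_finsetSum _ fun i _ => ((hab i).sub_const (b i)).abs
  refine squeeze_zero (fun n => dist_nonneg) (fun n => ?_) h3
  rw [dist_eq_norm, ← Finset.sum_sub_distrib]
  refine (norm_sum_le _ _).trans (Finset.sum_le_sum fun i _ => ?_)
  rw [← sub_smul, norm_smul, Real.norm_eq_abs]
  exact mul_le_of_le_one_right (abs_nonneg _) (hx n i)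

/-- normalised representatives -/
theorem exists_rep [∀ n, Nonempty (Metric.sphere (0 : E n) 1)] (u : UP U E) (hu : ‖u‖ = 1) :
    ∃ x : ∀ n, Metric.sphere (0 : E n) 1,
      up U (fun n => (x n : E n)) ⟨1, fun n => (norm_eq_of_mem_sphere (x n)).le⟩ = u := by
  classical
  obtain ⟨y, h, rfl⟩ := exists_up u
  have hy := tendsto_norm_up (U := U) y h
  rw [hu] at hy
  let x : ∀ n, Metric.sphere (0 : E n) 1 := fun n =>
    if h0 : y n = 0 then Classical.arbitrary _ else ⟨‖y n‖⁻¹ • y n, by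
      rw [mem_sphere_zero_iff_norm, norm_smul, norm_inv, norm_norm,
        inv_mul_cancel₀ (norm_ne_zero_iff.mpr h0)]⟩
  refine ⟨x, up_eq_of_tendsto _ _ ?_⟩
  have h1 : Tendsto (fun n => |1 - ‖y n‖|) (U : Filter ι) (𝓝 0) := by
    have := ((hy.const_sub 1).abs)
    rwa [sub_self, abs_zero] at this
  refine (tendsto_congr' ?_).mpr h1
  have h2 : ∀ᶠ n in (U : Filter ι), ‖y n‖ ≠ 0 := hy.eventually_ne one_ne_zero
  filter_upwards [h2] with n hn
  have h3 : (x n : E n) = ‖y n‖⁻¹ • y n := by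
    change ((if h0 : y n = 0 then Classical.arbitrary _ else _ :
      Metric.sphere (0 : E n) 1) : E n) = _
    rw [dif_neg (norm_ne_zero_iff.mp hn)]
  rw [h3, dist_eq_norm]
  have h4 : ‖y n‖⁻¹ • y n - y n = (‖y n‖⁻¹ - 1) • y n := by rw [sub_smul, one_smul]
  rw [h4, norm_smul, Real.norm_eq_abs]
  nth_rewrite 2 [← abs_of_nonneg (norm_nonneg (y n))]
  rw [← abs_mul, sub_mul, inv_mul_cancel₀ hn, one_mul]

end Ultra

end Vale.Agent.P084.H406
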