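import Vale.Agent.P084.Bdl.B5
import Vale.Agent.P084.H406.Ultra

/-!
P084 (helper406): stability of Tingley's problem, by ultraproducts.
-/

open Filter Topology Metric

namespace Vale.Agent.P084.H406

universe u v

section Family

variable {ι : Type} {U : Ultrafilter ι} {E : ι → Type u} [∀ n, NormedAddCommGroup (E n)]
  [∀ n, NormedSpace ℝ (E n)]

variable (U) in
/-- class of a family of unit vectors -/
noncomputable def us (x : ∀ n, sphere (0 : E n) 1) : UP U E :=
  up U (fun n => (x n : E n)) ⟨1, fun n => (norm_eq_of_mem_sphere (x n)).le⟩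

theorem norm_us (x : ∀ n, sphere (0 : E n) 1) : ‖us U x‖ = 1 := by
  refine tendsto_nhds_unique (tendsto_norm_up (U := U) _ _) ?_
  simp only [norm_eq_of_mem_sphere]
  exact tendsto_const_nhds

theorem tendsto_dist_us (x y : ∀ n, sphere (0 : E n) 1) :
    Tendsto (fun n => dist (x n) (y n)) (U : Filter ι) (𝓝 (dist (us U x) (us U y))) :=
  tendsto_dist_up _ _

theorem us_eq {x y : ∀ n, sphere (0 : E n) 1}
    (h : Tendsto (fun n => dist (x n) (y n)) (U : Filter ι) (𝓝 0)) : us U x = us U y :=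
  up_eq_of_tendsto _ _ h

theorem tendsto_of_us_eq {x y : ∀ n, sphere (0 : E n) 1} (h : us U x = us U y) :
    Tendsto (fun n => dist (x n) (y n)) (U : Filter ι) (𝓝 0) := by
  have := tendsto_dist_us (U := U) x y
  rwa [h, dist_self] at this

end Family

section Ext

variable {ι : Type} {U : Ultrafilter ι} {X : ι → Type u} [∀ n, NormedAddCommGroup (X n)]
  [∀ n, NormedSpace ℝ (X n)] {Y : ι → Type v} [∀ n, NormedAddCommGroup (Y n)]
  [∀ n, NormedSpace ℝ (Y n)] {f : ∀ n, sphere (0 : X n) 1 → sphere (0 : Y n) 1} {δ : ι → ℝ}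

omit [∀ n, NormedSpace ℝ (Y n)] in
theorem tendsto_dist_map (hδ : Tendsto δ (U : Filter ι) (𝓝 0))
    (h1 : ∀ n x y, |dist (f n x) (f n y) - dist x y| ≤ δ n) (x y : ∀ n, sphere (0 : X n) 1) :
    Tendsto (fun n => dist (f n (x n)) (f n (y n))) (U : Filter ι)
      (𝓝 (dist (us U x) (us U y))) := by
  have h2 : Tendsto (fun n => dist (f n (x n)) (f n (y n)) - dist (x n) (y n))
      (U : Filter ι) (𝓝 0) :=
    squeeze_zero_norm (fun n => by rw [Real.norm_eq_abs]; exact h1 n _ _) hδ
  have h3 := h2.add (tendsto_dist_us (U := U) x y)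
  simpa using h3

/-- the linear isometry of the ultraproducts -/
theorem exists_T [∀ n, Nonempty (sphere (0 : X n) 1)] (hδ : Tendsto δ (U : Filter ι) (𝓝 0))
    (h1 : ∀ n x y, |dist (f n x) (f n y) - dist x y| ≤ δ n)
    (h2 : ∀ n y, ∃ x, dist (f n x) y ≤ δ n) :
    ∃ T : UP U X ≃ₗᵢ[ℝ] UP U Y, ∀ x : ∀ n, sphere (0 : X n) 1,
      T (us U x) = us U (fun n => f n (x n)) := by
  choose rep hrep using fun u : sphere (0 : UP U X) 1 =>
    exists_rep (U := U) (u : UP U X) (norm_eq_of_mem_sphere u)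
  have hrep' : ∀ u, us U (rep u) = u := hrep
  have hne : ∀ n, Nonempty (sphere (0 : Y n) 1) := fun n => ⟨f n (Classical.arbitrary _)⟩
  let F : sphere (0 : UP U X) 1 → sphere (0 : UP U Y) 1 := fun u =>
    ⟨us U (fun n => f n (rep u n)), by rw [mem_sphere_zero_iff_norm]; exact norm_us _⟩
  have hFx : ∀ (x : ∀ n, sphere (0 : X n) 1) (hx : us U x ∈ sphere (0 : UP U X) 1),
      (F ⟨us U x, hx⟩ : UP U Y) = us U (fun n => f n (x n)) := by
    intro x hx
    apply us_eq
    have h3 := tendsto_dist_map hδ h1 (rep ⟨us U x, hx⟩) x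
    rwa [hrep', dist_self] at h3
  have hiso : Isometry F := by
    refine Isometry.of_dist_eq fun u w => ?_
    have h3 := tendsto_dist_map hδ h1 (rep u) (rep w)
    rw [hrep', hrep'] at h3
    exact tendsto_nhds_unique (tendsto_dist_us (U := U) _ _) h3
  have hsurj : Function.Surjective F := by
    intro w
    obtain ⟨y, hy⟩ := exists_rep (U := U) (w : UP U Y) (norm_eq_of_mem_sphere w)
    choose x hx using fun n => h2 n (y n)
    refine ⟨⟨us U x, by rw [mem_sphere_zero_iff_norm]; exact norm_us _⟩, ?_⟩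
    apply Subtype.ext
    rw [hFx, ← hy]
    exact us_eq (squeeze_zero (fun n => dist_nonneg) hx hδ)
  obtain ⟨T, hT⟩ := Vale.Agent.P084.mazurUlam F hiso hsurj
  refine ⟨T, fun x => ?_⟩
  have hx : us U x ∈ sphere (0 : UP U X) 1 := by rw [mem_sphere_zero_iff_norm]; exact norm_us _
  rw [← hFx x hx]
  exact hT ⟨us U x, hx⟩

theorem tendsto_comb [∀ n, Nonempty (sphere (0 : X n) 1)] (hδ : Tendsto δ (U : Filter ι) (𝓝 0))
    (h1 : ∀ n x y, |dist (f n x) (f n y) - dist x y| ≤ δ n)
    (h2 : ∀ n y, ∃ x, dist (f n x) y ≤ δ n) {m : ℕ} (x : ∀ n, Fin m → sphere (0 : X n) 1)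
    (a : ι → Fin m → ℝ) (ha : ∀ n i, |a n i| ≤ 1) :
    Tendsto (fun n => ‖∑ i, a n i • (f n (x n i) : Y n)‖ - ‖∑ i, a n i • (x n i : X n)‖)
      (U : Filter ι) (𝓝 0) := by
  obtain ⟨T, hT⟩ := exists_T (U := U) hδ h1 h2
  choose b hb using fun i => exists_lim (U := U) (g := fun n => a n i) ⟨1, fun n => ha n i⟩
  have e1 := up_sum (U := U) (a := a) (b := b) (x := fun n i => (x n i : X n)) ha
    (fun n i => (norm_eq_of_mem_sphere (x n i)).le) hb
  have e2 := up_sum (U := U) (a := a) (b := b) (x := fun n i => (f n (x n i) : Y n)) ha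
    (fun n i => (norm_eq_of_mem_sphere (f n (x n i))).le) hb
  have l1 := tendsto_norm_up (U := U) (fun n => ∑ i, a n i • (x n i : X n))
    (bdd_sum ha fun n i => (norm_eq_of_mem_sphere (x n i)).le)
  have l2 := tendsto_norm_up (U := U) (fun n => ∑ i, a n i • (f n (x n i) : Y n))
    (bdd_sum ha fun n i => (norm_eq_of_mem_sphere (f n (x n i))).le)
  rw [e1] at l1
  rw [e2] at l2
  have e3 : ∑ i, b i • up U (fun n => (f n (x n i) : Y n))
      ⟨1, fun n => (norm_eq_of_mem_sphere (f n (x n i))).le⟩ =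
      T (∑ i, b i • up U (fun n => (x n i : X n))
        ⟨1, fun n => (norm_eq_of_mem_sphere (x n i)).le⟩) := by
    rw [map_sum]
    refine Finset.sum_congr rfl fun i _ => ?_
    rw [map_smul]
    exact congrArg (b i • ·) (hT fun n => x n i).symm
  rw [e3, T.norm_map] at l2
  have := l2.sub l1
  rwa [sub_self] at this

end Ext

/-- **Stability of Tingley's problem**, uniformly over all real normed spaces. -/
theorem stability (m : ℕ) (ε : ℝ) (hε : 0 < ε) :
    ∃ δ : ℝ, 0 < δ ∧ ∀ (X : Type u) [NormedAddCommGroup X] [NormedSpace ℝ X]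
      (Y : Type v) [NormedAddCommGroup Y] [NormedSpace ℝ Y]
      (f : sphere (0 : X) 1 → sphere (0 : Y) 1),
      (∀ x x', |dist (f x) (f x') - dist x x'| ≤ δ) → (∀ y, ∃ x, dist (f x) y ≤ δ) →
      ∀ (x : Fin m → sphere (0 : X) 1) (a : Fin m → ℝ),
        |‖∑ i, a i • (f (x i) : Y)‖ - ‖∑ i, a i • (x i : X)‖| ≤ ε * ∑ i, |a i| := by
  by_contra hcon
  push Not at hcon
  have hpos : ∀ n : ℕ, (0 : ℝ) < 1 / ((n : ℝ) + 1) := fun n => Nat.one_div_pos_of_nat
  choose X iX iX' Y iY iY' f h1 h2 x a h3 using fun n : ℕ => hcon _ (hpos n)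
  have hs : ∀ n, 0 < ∑ i, |a n i| := by
    intro n
    by_contra hn
    have h0 : ∑ i, |a n i| = 0 :=
      le_antisymm (not_lt.mp hn) (Finset.sum_nonneg fun i _ => abs_nonneg _)
    have h4 : ∀ i, a n i = 0 := fun i =>
      abs_eq_zero.mp ((Finset.sum_eq_zero_iff_of_nonneg fun i _ => abs_nonneg _).mp h0 i
        (Finset.mem_univ i))
    have h5 := h3 n
    simp [h4] at h5
  have hne : ∀ n, Nonempty (sphere (0 : X n) 1) := by
    intro n
    have h4 : Nonempty (Fin m) := by
      by_contra hm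
      rw [not_nonempty_iff] at hm
      have := hs n
      simp at this
    exact ⟨x n h4.some⟩
  let b : ℕ → Fin m → ℝ := fun n i => (∑ i, |a n i|)⁻¹ * a n i
  have hb : ∀ n i, |b n i| ≤ 1 := by
    intro n i
    change |(∑ i, |a n i|)⁻¹ * a n i| ≤ 1
    rw [abs_mul, abs_inv, abs_of_pos (hs n), inv_mul_le_iff₀ (hs n), mul_one]
    exact Finset.single_le_sum (f := fun i => |a n i|) (fun i _ => abs_nonneg _)
      (Finset.mem_univ i)
  have hδ : Tendsto (fun n : ℕ => 1 / ((n : ℝ) + 1)) ((hyperfilter ℕ : Ultrafilter ℕ) : Filter ℕ)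
      (𝓝 0) := tendsto_one_div_add_atTop_nhds_zero_nat.mono_left
        (Nat.hyperfilter_le_atTop)
  have key := tendsto_comb (U := hyperfilter ℕ) (f := f) hδ h1 h2 x b hb
  have h6 : ∀ n, ε < |‖∑ i, b n i • (f n (x n i) : Y n)‖ - ‖∑ i, b n i • (x n i : X n)‖| := by
    intro n
    have e1 : ∑ i, b n i • (f n (x n i) : Y n) =
        (∑ i, |a n i|)⁻¹ • ∑ i, a n i • (f n (x n i) : Y n) := by
      rw [Finset.smul_sum]
      exact Finset.sum_congr rfl fun i _ => mul_smul _ _ _
    have e2 : ∑ i, b n i • (x n i : X n) = (∑ i, |a n i|)⁻¹ • ∑ i, a n i • (x n i : X n) := by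
      rw [Finset.smul_sum]
      exact Finset.sum_congr rfl fun i _ => mul_smul _ _ _
    rw [e1, e2, norm_smul, norm_smul, ← mul_sub, abs_mul, abs_norm, norm_inv, Real.norm_eq_abs,
      abs_of_pos (hs n), lt_inv_mul_iff₀ (hs n), mul_comm]
    exact h3 n
  have h7 := key.abs
  rw [abs_zero] at h7
  have h8 := ge_of_tendsto h7 (Eventually.of_forall fun n => (h6 n).le)
  exact absurd h8 (not_le.mpr hε)

/-- isometries of unit spheres with dense range preserve the norms of all combinations -/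
theorem norm_comb_of_dense {X : Type u} [NormedAddCommGroup X] [NormedSpace ℝ X] {Y : Type v}
    [NormedAddCommGroup Y] [NormedSpace ℝ Y] {f : sphere (0 : X) 1 → sphere (0 : Y) 1}
    (hf : Isometry f) (hd : DenseRange f) {m : ℕ} (x : Fin m → sphere (0 : X) 1)
    (a : Fin m → ℝ) : ‖∑ i, a i • (f (x i) : Y)‖ = ‖∑ i, a i • (x i : X)‖ := by
  have key : ∀ ε : ℝ, 0 < ε →
      |‖∑ i, a i • (f (x i) : Y)‖ - ‖∑ i, a i • (x i : X)‖| ≤ ε * ∑ i, |a i| := by
    intro ε hε
    obtain ⟨δ, hδ, h⟩ := stability.{u, v} m ε hε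
    refine h X Y f (fun x x' => ?_) (fun y => ?_) x a
    · rw [hf.dist_eq, sub_self, abs_zero]
      exact hδ.le
    · obtain ⟨x, hx⟩ := hd.exists_dist_lt y hδ
      exact ⟨x, by rw [dist_comm]; exact hx.le⟩
  have h0 : |‖∑ i, a i • (f (x i) : Y)‖ - ‖∑ i, a i • (x i : X)‖| ≤ 0 := by
    refine le_of_forall_pos_le_add fun η hη => ?_
    rw [zero_add]
    have hS : 0 ≤ ∑ i, |a i| := Finset.sum_nonneg fun i _ => abs_nonneg _
    have h1 := key (η / (∑ i, |a i| + 1)) (by positivity)
    refine h1.trans ?_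
    rw [div_mul_eq_mul_div, div_le_iff₀ (by positivity)]
    nlinarith
  exact sub_eq_zero.mp (abs_eq_zero.mp (le_antisymm h0 (abs_nonneg _)))

/-- isometries of unit spheres with dense range are restrictions of linear isometric embeddings -/
theorem dense_range {X : Type u} [NormedAddCommGroup X] [NormedSpace ℝ X] {Y : Type v}
    [NormedAddCommGroup Y] [NormedSpace ℝ Y] (f : sphere (0 : X) 1 → sphere (0 : Y) 1)
    (hf : Isometry f) (hd : DenseRange f) :
    ∃ T : X →ₗᵢ[ℝ] Y, DenseRange T ∧ ∀ x : sphere (0 : X) 1, T (x : X) = (f x : Y) := by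
  classical
  by_cases hX : Nonempty (sphere (0 : X) 1)
  · let g : X → sphere (0 : X) 1 := fun v => if h : v = 0 then hX.some else ⟨‖v‖⁻¹ • v, by
      rw [mem_sphere_zero_iff_norm, norm_smul, norm_inv, norm_norm,
        inv_mul_cancel₀ (norm_ne_zero_iff.mpr h)]⟩
    have hg : ∀ v, ‖v‖ • (g v : X) = v := by
      intro v
      by_cases h : v = 0
      · rw [h, norm_zero, zero_smul]
      · change ‖v‖ • ((if h : v = 0 then hX.some else _ : sphere (0 : X) 1) : X) = v
        rw [dif_neg h]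
        change ‖v‖ • (‖v‖⁻¹ • v) = v
        rw [smul_smul, mul_inv_cancel₀ (norm_ne_zero_iff.mpr h), one_smul]
    have hadd : ∀ u v, ‖u + v‖ • (f (g (u + v)) : Y) =
        ‖u‖ • (f (g u) : Y) + ‖v‖ • (f (g v) : Y) := by
      intro u v
      have h1 := norm_comb_of_dense hf hd ![g (u + v), g u, g v] ![‖u + v‖, -‖u‖, -‖v‖]
      simp only [Fin.sum_univ_three, Matrix.cons_val_zero, Matrix.cons_val_one,
        Matrix.cons_val_two, Matrix.tail_cons, Matrix.head_cons, neg_smul, hg] at h1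
      have h2 : u + v + -u + -v = 0 := by abel
      rw [h2, norm_zero, norm_eq_zero] at h1
      rw [← sub_eq_zero]
      refine Eq.trans ?_ h1
      abel
    have hsmul : ∀ (c : ℝ) v, ‖c • v‖ • (f (g (c • v)) : Y) = c • (‖v‖ • (f (g v) : Y)) := by
      intro c v
      have h1 := norm_comb_of_dense hf hd ![g (c • v), g v] ![‖c • v‖, -(c * ‖v‖)]
      simp only [Fin.sum_univ_two, Matrix.cons_val_zero, Matrix.cons_val_one,
        neg_smul, hg, mul_smul] at h1
      rw [add_neg_cancel, norm_zero, norm_eq_zero] at h1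
      rw [← sub_eq_zero]
      refine Eq.trans ?_ h1
      abel
    let T : X →ₗᵢ[ℝ] Y :=
      { toFun := fun v => ‖v‖ • (f (g v) : Y)
        map_add' := hadd
        map_smul' := hsmul
        norm_map' := fun v => by
          change ‖‖v‖ • (f (g v) : Y)‖ = ‖v‖
          rw [norm_smul, norm_norm, norm_eq_of_mem_sphere, mul_one] }
    have hTf : ∀ x : sphere (0 : X) 1, T (x : X) = (f x : Y) := by
      intro x
      change ‖(x : X)‖ • (f (g x) : Y) = f x
      have h1 : g x = x := by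
        apply Subtype.ext
        have := hg x
        rwa [norm_eq_of_mem_sphere, one_smul] at this
      rw [h1, norm_eq_of_mem_sphere, one_smul]
    refine ⟨T, ?_, hTf⟩
    intro y
    rw [Metric.mem_closure_iff]
    intro ε hε
    by_cases hy : y = 0
    · exact ⟨T 0, ⟨0, rfl⟩, by rw [hy, map_zero, dist_self]; exact hε⟩
    · have hy' : 0 < ‖y‖ := norm_pos_iff.mpr hy
      let w : sphere (0 : Y) 1 := ⟨‖y‖⁻¹ • y, by
        rw [mem_sphere_zero_iff_norm, norm_smul, norm_inv, norm_norm,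
          inv_mul_cancel₀ hy'.ne']⟩
      obtain ⟨x, hx⟩ := hd.exists_dist_lt w (div_pos hε hy')
      refine ⟨T (‖y‖ • (x : X)), ⟨_, rfl⟩, ?_⟩
      have h1 : y = ‖y‖ • (w : Y) := by
        change y = ‖y‖ • (‖y‖⁻¹ • y)
        rw [smul_smul, mul_inv_cancel₀ hy'.ne', one_smul]
      rw [map_smul, hTf, dist_eq_norm]
      nth_rewrite 1 [h1]
      rw [← smul_sub, norm_smul, norm_norm, ← lt_div_iff₀' hy', ← dist_eq_norm]
      exact hx
  · rw [not_nonempty_iff] at hX
    have hX' : Subsingleton X := by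
      rw [subsingleton_iff_forall_eq 0]
      intro v
      by_contra h
      exact hX.false ⟨‖v‖⁻¹ • v, by
        rw [mem_sphere_zero_iff_norm, norm_smul, norm_inv, norm_norm,
          inv_mul_cancel₀ (norm_ne_zero_iff.mpr h)]⟩
    have hY : IsEmpty (sphere (0 : Y) 1) := by
      constructor
      intro y
      obtain ⟨x, _⟩ := hd.exists_dist_lt y one_pos
      exact hX.false x
    have hY' : Subsingleton Y := by
      rw [subsingleton_iff_forall_eq 0]
      intro v
      by_contra h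
      exact hY.false ⟨‖v‖⁻¹ • v, by
        rw [mem_sphere_zero_iff_norm, norm_smul, norm_inv, norm_norm,
          inv_mul_cancel₀ (norm_ne_zero_iff.mpr h)]⟩
    refine ⟨{ toLinearMap := 0, norm_map' := fun v => ?_ }, ?_, fun x => (hX.false x).elim⟩
    · rw [Subsingleton.elim v 0, map_zero, norm_zero, norm_zero]
    · intro y
      exact subset_closure ⟨0, Subsingleton.elim _ _⟩

end Vale.Agent.P084.H406
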